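import Vale.Agent.P054.MathlibUsed
import Vale.Agent.P054.H449.IM.Defs
attribute [-instance] ProperSMul.toContinuousSMul IsTopologicalTorsor.toContinuousSMul IdemSemiring.toCanonicallyOrderedAdd IdemSemiring.toMulLeftMono IdemSemiring.toMulRightMono AddQuantale.instAddLeftMono AddQuantale.instAddRightMono Quantale.instMulLeftMono Quantale.instMulRightMono FiniteDimensional.rclike_to_real IsScalarTower.complexToReal FiniteDimensional.complexToReal

set_option linter.all false
set_option autoImplicit false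

open Finset Vale.Agent.P054K

namespace Vale.Agent.P054I

theorem side_iff {d : ℕ} (z : EuclideanSpace ℝ (Fin d))
    (π : EuclideanSpace ℝ (Fin d) × EuclideanSpace ℝ (Fin d)) :
    dist z π.1 < dist z π.2 ↔ 0 < phi z (dualVec π) := by
  have h1 : dist z π.1 ^ 2 = ‖z‖ ^ 2 - 2 * inner ℝ z π.1 + ‖π.1‖ ^ 2 := by
    rw [dist_eq_norm, norm_sub_sq_real]
  have h2 : dist z π.2 ^ 2 = ‖z‖ ^ 2 - 2 * inner ℝ z π.2 + ‖π.2‖ ^ 2 := by
    rw [dist_eq_norm, norm_sub_sq_real]
  have h3 : phi z (dualVec π) = dist z π.2 ^ 2 - dist z π.1 ^ 2 := by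
    unfold dualVec
    rw [phi_apply, h1, h2, inner_sub_right]; ring
  rw [h3, sub_pos]
  exact (sq_lt_sq₀ dist_nonneg dist_nonneg).symm

theorem side_iff' {d : ℕ} (z : EuclideanSpace ℝ (Fin d))
    (π : EuclideanSpace ℝ (Fin d) × EuclideanSpace ℝ (Fin d)) :
    dist z π.2 < dist z π.1 ↔ phi z (dualVec π) < 0 := by
  have h1 : dist z π.1 ^ 2 = ‖z‖ ^ 2 - 2 * inner ℝ z π.1 + ‖π.1‖ ^ 2 := by
    rw [dist_eq_norm, norm_sub_sq_real]
  have h2 : dist z π.2 ^ 2 = ‖z‖ ^ 2 - 2 * inner ℝ z π.2 + ‖π.2‖ ^ 2 := by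
    rw [dist_eq_norm, norm_sub_sq_real]
  have h3 : phi z (dualVec π) = dist z π.2 ^ 2 - dist z π.1 ^ 2 := by
    unfold dualVec
    rw [phi_apply, h1, h2, inner_sub_right]; ring
  rw [h3, sub_neg]
  exact (sq_lt_sq₀ dist_nonneg dist_nonneg).symm

theorem heavy_smul {d : ℕ} (X : Finset (EuclideanSpace ℝ (Fin d))) (b : ℕ)
    (π π' : EuclideanSpace ℝ (Fin d) × EuclideanSpace ℝ (Fin d)) (c : ℝ) (hc : c ≠ 0)
    (h : dualVec π = c • dualVec π') (hH : Heavy X b π) : Heavy X b π' := by
  classical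
  unfold Heavy at hH ⊢
  simp only [side_iff, side_iff'] at hH ⊢
  rw [h] at hH
  simp only [map_smul, smul_eq_mul] at hH
  rcases lt_or_gt_of_ne hc with hc | hc
  · have e1 : ∀ z : EuclideanSpace ℝ (Fin d),
        (0 < c * phi z (dualVec π')) ↔ phi z (dualVec π') < 0 := by
      intro z
      constructor
      · intro h1; by_contra h2; push Not at h2
        have := mul_nonpos_of_nonpos_of_nonneg hc.le h2
        linarith only [this, h1]
      · intro h1; exact mul_pos_of_neg_of_neg hc h1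
    have e2 : ∀ z : EuclideanSpace ℝ (Fin d),
        (c * phi z (dualVec π') < 0) ↔ 0 < phi z (dualVec π') := by
      intro z
      constructor
      · intro h1; by_contra h2; push Not at h2
        have := mul_nonneg_of_nonpos_of_nonpos hc.le h2
        linarith only [this, h1]
      · intro h1; exact mul_neg_of_neg_of_pos hc h1
    simp only [e1, e2] at hH
    exact ⟨hH.2, hH.1⟩
  · have e1 : ∀ z : EuclideanSpace ℝ (Fin d),
        (0 < c * phi z (dualVec π')) ↔ 0 < phi z (dualVec π') := by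
      intro z
      exact mul_pos_iff_of_pos_left hc
    have e2 : ∀ z : EuclideanSpace ℝ (Fin d),
        (c * phi z (dualVec π') < 0) ↔ phi z (dualVec π') < 0 := by
      intro z
      constructor
      · intro h1; by_contra h2; push Not at h2
        have := mul_nonneg hc.le h2
        linarith only [this, h1]
      · intro h1; exact mul_neg_of_pos_of_neg hc h1
    simp only [e1, e2] at hH
    exact hH

theorem heavy_of_hvl {d : ℕ} (X : Finset (EuclideanSpace ℝ (Fin d))) (b : ℕ)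
    (π : EuclideanSpace ℝ (Fin d) × EuclideanSpace ℝ (Fin d))
    (h : HvL X b (Submodule.span ℝ {dualVec π})) : Heavy X b π := by
  obtain ⟨π', hne, hL, hH⟩ := h
  have h1 : dualVec π' ∈ Submodule.span ℝ {dualVec π} := by
    rw [hL]; exact Submodule.mem_span_singleton_self _
  rw [Submodule.mem_span_singleton] at h1
  obtain ⟨c, hc⟩ := h1
  have hc0 : c ≠ 0 := by
    rintro rfl
    rw [zero_smul] at hc
    exact dualVec_ne_zero π' hne hc.symm
  exact heavy_smul X b π' π c hc0 hc.symm hH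

theorem heavy_sepc {d : ℕ} (X : Finset (EuclideanSpace ℝ (Fin d))) (b : ℕ)
    (π : EuclideanSpace ℝ (Fin d) × EuclideanSpace ℝ (Fin d)) (h : Heavy X b π) :
    (b : ℝ) * X.card ≤ sepc rng (π, false) X := by
  classical
  obtain ⟨a, c⟩ := π
  unfold Heavy at h
  obtain ⟨h1, h2⟩ := h
  rw [sepc_split]
  have e1 : ∀ y : EuclideanSpace ℝ (Fin d), rng ((a, c), false) y = true ↔
      ¬ dist y a < dist y c := by
    intro y
    have := side_iff y (a, c)
    simp only at this
    rw [this, rng_half, not_lt]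
    unfold dualVec
    rw [phi_apply]
    simp only
    rw [real_inner_comm]
  have e2 : (X.filter (fun y => rng ((a, c), false) y = true)).card +
      (X.filter (fun y => ¬ rng ((a, c), false) y = true)).card = X.card :=
    Finset.card_filter_add_card_filter_not _
  have e3 : b ≤ (X.filter (fun y => ¬ rng ((a, c), false) y = true)).card := by
    refine le_trans h1 (card_le_card ?_)
    intro y hy
    rw [mem_filter] at hy ⊢
    refine ⟨hy.1, ?_⟩
    rw [e1, not_not]
    exact hy.2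
  have e4 : b ≤ (X.filter (fun y => rng ((a, c), false) y = true)).card := by
    refine le_trans h2 (card_le_card ?_)
    intro y hy
    rw [mem_filter] at hy ⊢
    refine ⟨hy.1, ?_⟩
    rw [e1, not_lt]
    exact hy.2.le
  set T := (X.filter (fun y => rng ((a, c), false) y = true)).card with hT
  set U := (X.filter (fun y => ¬ rng ((a, c), false) y = true)).card with hU
  have f1 : (b : ℝ) ≤ T := by exact_mod_cast e4
  have f2 : (b : ℝ) ≤ U := by exact_mod_cast e3
  have f3 : (T : ℝ) + U = X.card := by exact_mod_cast e2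
  rw [← f3]
  have hT0 : (0:ℝ) ≤ T := Nat.cast_nonneg _
  have hU0 : (0:ℝ) ≤ U := Nat.cast_nonneg _
  have g1 : (b : ℝ) * T ≤ U * T := mul_le_mul_of_nonneg_right f2 hT0
  have g2 : (b : ℝ) * U ≤ T * U := mul_le_mul_of_nonneg_right f1 hU0
  linarith only [g1, g2]

theorem heavy_card {d : ℕ} (X : Finset (EuclideanSpace ℝ (Fin d))) (b : ℕ)
    (π : EuclideanSpace ℝ (Fin d) × EuclideanSpace ℝ (Fin d)) (h : Heavy X b π) :
    2 * b ≤ X.card := by
  classical
  unfold Heavy at h
  obtain ⟨h1, h2⟩ := h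
  have h3 : Disjoint (X.filter (fun z => dist z π.1 < dist z π.2))
      (X.filter (fun z => dist z π.2 < dist z π.1)) := by
    rw [Finset.disjoint_left]
    intro y hy hy'
    exact lt_asymm (mem_filter.mp hy).2 (mem_filter.mp hy').2
  have h4 : ((X.filter (fun z => dist z π.1 < dist z π.2)) ∪
      (X.filter (fun z => dist z π.2 < dist z π.1))).card ≤ X.card :=
    card_le_card (union_subset (filter_subset _ _) (filter_subset _ _))
  rw [card_union_of_disjoint h3] at h4
  omega

open scoped Classical in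
/-- blocks for which a given range is heavy -/
theorem hvl_blocks {d : ℕ} {P Q : Finset (EuclideanSpace ℝ (Fin d))} {s x l t1 I C1 : ℕ} {Λ κ : ℝ}
    {F : Fin s → Finset (Finset (EuclideanSpace ℝ (Fin d)))} {jp : EuclideanSpace ℝ (Fin d) → ℕ}
    (hD : DataA P Q s x l t1 I C1 Λ κ F jp) (a : ℕ) (π : EuclideanSpace ℝ (Fin d) × EuclideanSpace ℝ (Fin d))
    (hπ : π ∈ P.offDiag) :
    (((Bl F).filter (fun B => HvL B.2 (2 ^ a) (Submodule.span ℝ {dualVec π}))).card : ℝ) * 2 ^ a
      ≤ 4 * Λ * Q.card := by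
  have hx0 : (0:ℝ) < x := by
    have := hD.hx8
    exact_mod_cast (by omega : 0 < x)
  have hσ : (π, false) ∈ S2 P := by
    unfold S2
    rw [mem_product, mem_product]
    exact ⟨⟨(mem_offDiag.mp hπ).1, (mem_offDiag.mp hπ).2.1⟩, mem_univ _⟩
  have h1 := hD.hsep (π, false) hσ
  have h2 : ∑ τ, ∑ X ∈ F τ, sepc rng (π, false) X = ∑ B ∈ Bl F, sepc rng (π, false) B.2 := by
    unfold Bl
    rw [Finset.sum_sigma]
  rw [h2] at h1
  have h3 : (((Bl F).filter (fun B => HvL B.2 (2 ^ a) (Submodule.span ℝ {dualVec π}))).card : ℝ) *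
      (2 ^ a * x) ≤ ∑ B ∈ Bl F, sepc rng (π, false) B.2 := by
    calc (((Bl F).filter (fun B => HvL B.2 (2 ^ a) (Submodule.span ℝ {dualVec π}))).card : ℝ) *
          (2 ^ a * x)
        = ∑ B ∈ (Bl F).filter (fun B => HvL B.2 (2 ^ a) (Submodule.span ℝ {dualVec π})),
            ((2:ℝ) ^ a * x) := by
          rw [Finset.sum_const, nsmul_eq_mul]
      _ ≤ ∑ B ∈ (Bl F).filter (fun B => HvL B.2 (2 ^ a) (Submodule.span ℝ {dualVec π})),
            sepc rng (π, false) B.2 := by
          apply Finset.sum_le_sum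
          intro B hB
          rw [mem_filter] at hB
          have h4 := heavy_sepc B.2 (2 ^ a) π (heavy_of_hvl B.2 (2 ^ a) π hB.2)
          have h5 : B.2.card = x := by
            have h6 := hB.1
            unfold Bl at h6
            rw [mem_sigma] at h6
            exact hD.hFcard B.1 B.2 h6.2
          rw [h5] at h4
          push_cast at h4
          exact h4
      _ ≤ ∑ B ∈ Bl F, sepc rng (π, false) B.2 :=
          Finset.sum_le_sum_of_subset_of_nonneg (filter_subset _ _)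
            (fun B _ _ => sepc_nonneg _ _ _)
  have h4 := h3.trans h1
  have h5 : ((((Bl F).filter (fun B => HvL B.2 (2 ^ a) (Submodule.span ℝ {dualVec π}))).card : ℝ) *
      2 ^ a) * x ≤ (4 * Λ * Q.card) * x := by linarith only [h4]
  exact le_of_mul_le_mul_right h5 hx0

open scoped Classical in
/-- one level -/
theorem vb_level {d : ℕ} {P Q : Finset (EuclideanSpace ℝ (Fin d))} {s x l t1 I C1 : ℕ} {Λ κ : ℝ}
    {F : Fin s → Finset (Finset (EuclideanSpace ℝ (Fin d)))} {jp : EuclideanSpace ℝ (Fin d) → ℕ}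
    (hD : DataA P Q s x l t1 I C1 Λ κ F jp) (η μ : ℝ) (hη : 0 < η) (a : ℕ)
    (p : EuclideanSpace ℝ (Fin d))
    (hr : ((rl (Jl F a) μ p).card : ℝ) ≤ s * η * 4 ^ a / (x:ℝ) ^ 2) :
    (∑ B ∈ Bl F, ((vb F a μ p B.2).card : ℝ)) * x ≤ 2 * s * η * Λ * Q.card := by
  have hx0 : (0:ℝ) < x := by
    have := hD.hx8
    exact_mod_cast (by omega : 0 < x)
  have hΛ0 : (0:ℝ) < Λ := lt_of_lt_of_le one_pos hD.hΛ1
  have hs0 : (0:ℝ) ≤ s := Nat.cast_nonneg _
  have hQ0 : (0:ℝ) ≤ Q.card := Nat.cast_nonneg _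
  by_cases hem : rl (Jl F a) μ p = ∅
  · have h1 : ∀ B ∈ Bl F, ((vb F a μ p B.2).card : ℝ) = 0 := by
      intro B _
      unfold vb
      rw [hem, filter_empty, card_empty, Nat.cast_zero]
    rw [Finset.sum_congr rfl h1, Finset.sum_const_zero, zero_mul]
    positivity
  have hne : (rl (Jl F a) μ p).Nonempty := nonempty_iff_ne_empty.mpr hem
  -- the elements of `rl`
  have hrl : ∀ L ∈ rl (Jl F a) μ p, ∃ i ∈ Jl F a, L = Submodule.span ℝ {dualVec i.2} := by
    intro L hL
    unfold rl at hL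
    rw [mem_image] at hL
    obtain ⟨i, hi, rfl⟩ := hL
    rw [mem_filter] at hi
    exact ⟨i, hi.1, rfl⟩
  -- the size
  have hxa : (2:ℝ) * 2 ^ a ≤ x := by
    obtain ⟨L, hL⟩ := hne
    obtain ⟨i, hi, _⟩ := hrl L hL
    unfold Jl at hi
    rw [mem_filter] at hi
    obtain ⟨_, X, hX, _, hH, _⟩ := hi
    have h1 := heavy_card X (2 ^ a) i.2 hH
    rw [hD.hFcard i.1 X hX] at h1
    exact_mod_cast h1
  have hcount : (∑ B ∈ Bl F, ((vb F a μ p B.2).card : ℝ)) =
      ∑ L ∈ rl (Jl F a) μ p, (((Bl F).filter (fun B => HvL B.2 (2 ^ a) L)).card : ℝ) := by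
    have h1 : ∀ B ∈ Bl F, ((vb F a μ p B.2).card : ℝ) =
        ∑ L ∈ rl (Jl F a) μ p, (if HvL B.2 (2 ^ a) L then (1:ℝ) else 0) := by
      intro B _
      unfold vb
      rw [← Finset.sum_filter, Finset.sum_const, nsmul_eq_mul, mul_one]
    have h2 : ∀ L ∈ rl (Jl F a) μ p, (((Bl F).filter (fun B => HvL B.2 (2 ^ a) L)).card : ℝ) =
        ∑ B ∈ Bl F, (if HvL B.2 (2 ^ a) L then (1:ℝ) else 0) := by
      intro L _
      rw [← Finset.sum_filter, Finset.sum_const, nsmul_eq_mul, mul_one]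
    rw [Finset.sum_congr rfl h1, Finset.sum_congr rfl h2, Finset.sum_comm]
  have h2a : (0:ℝ) < 2 ^ a := by positivity
  have hbd : (∑ B ∈ Bl F, ((vb F a μ p B.2).card : ℝ)) * 2 ^ a ≤
      ((rl (Jl F a) μ p).card : ℝ) * (4 * Λ * Q.card) := by
    rw [hcount, Finset.sum_mul]
    calc ∑ L ∈ rl (Jl F a) μ p, (((Bl F).filter (fun B => HvL B.2 (2 ^ a) L)).card : ℝ) * 2 ^ a
        ≤ ∑ L ∈ rl (Jl F a) μ p, (4 * Λ * Q.card) := by
          apply Finset.sum_le_sum
          intro L hL
          obtain ⟨i, hi, rfl⟩ := hrl L hL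
          have h3 : i ∈ idx F := by
            unfold Jl at hi
            exact (mem_filter.mp hi).1
          exact hvl_blocks hD a i.2 (hD.hoff i h3)
      _ = _ := by rw [Finset.sum_const, nsmul_eq_mul]
  -- numerics
  have h4 : ((rl (Jl F a) μ p).card : ℝ) * x ^ 2 ≤ s * η * (2 ^ a) ^ 2 := by
    have h5 := (le_div_iff₀ (by positivity : (0:ℝ) < (x:ℝ) ^ 2)).mp hr
    have h6 : (4:ℝ) ^ a = (2 ^ a) ^ 2 := by
      rw [← pow_mul, mul_comm, pow_mul]; norm_num
    rw [h6] at h5
    exact h5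
  set S := ∑ B ∈ Bl F, ((vb F a μ p B.2).card : ℝ) with hS
  set A : ℝ := (2:ℝ) ^ a with hA
  set r := ((rl (Jl F a) μ p).card : ℝ) with hrdef
  have h7 : S * A * x ^ 2 ≤ s * η * A ^ 2 * (4 * Λ * Q.card) := by
    calc S * A * x ^ 2 ≤ (r * (4 * Λ * Q.card)) * x ^ 2 :=
          mul_le_mul_of_nonneg_right hbd (by positivity)
      _ = (r * x ^ 2) * (4 * Λ * Q.card) := by ring
      _ ≤ (s * η * A ^ 2) * (4 * Λ * Q.card) :=
          mul_le_mul_of_nonneg_right h4 (by positivity)
  have h8 : s * η * A ^ 2 * (4 * Λ * Q.card) ≤ (2 * s * η * Λ * Q.card) * (A * x) := by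
    have h9 : (2 * s * η * Λ * Q.card) * (A * (2 * A)) ≤ (2 * s * η * Λ * Q.card) * (A * x) := by
      apply mul_le_mul_of_nonneg_left _ (by positivity)
      exact mul_le_mul_of_nonneg_left hxa h2a.le
    linarith only [h9]
  have h10 : (S * x) * (A * x) ≤ (2 * s * η * Λ * Q.card) * (A * x) := by
    have h11 := h7.trans h8
    have h12 : (S * x) * (A * x) = S * A * x ^ 2 := by ring
    rw [h12]; exact h11
  exact le_of_mul_le_mul_right h10 (by positivity)

/-- (G2) few blocks have many balanced heavy mirrors -/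
theorem heavy_blocks (d : ℕ) : HeavyBlocks d := by
  classical
  intro P Q s x l t1 I C1 Λ κ F jp hD hl η μ hη p hp hr
  have hx0 : (0:ℝ) < x := by
    have := hD.hx8
    exact_mod_cast (by omega : 0 < x)
  have hΛ0 : (0:ℝ) < Λ := lt_of_lt_of_le one_pos hD.hΛ1
  have hl0 : (0:ℝ) < l := by exact_mod_cast hl
  have h1 : (∑ B ∈ Bl F, ∑ a ∈ range l, ((vb F a (μ a) p B.2).card : ℝ)) * x ≤
      l * (2 * s * η * Λ * Q.card) := by
    rw [Finset.sum_comm, Finset.sum_mul]
    calc ∑ a ∈ range l, (∑ B ∈ Bl F, ((vb F a (μ a) p B.2).card : ℝ)) * x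
        ≤ ∑ a ∈ range l, (2 * s * η * Λ * Q.card) := by
          apply Finset.sum_le_sum
          intro a ha
          exact vb_level hD η (μ a) hη a p (hr a (mem_range.mp ha))
      _ = _ := by rw [Finset.sum_const, card_range, nsmul_eq_mul]
  set bad := (Bl F).filter (fun B => 256 * l * Λ * η <
      ∑ a ∈ range l, ((vb F a (μ a) p B.2).card : ℝ)) with hbad
  have h2 : (bad.card : ℝ) * (256 * l * Λ * η) ≤
      ∑ B ∈ Bl F, ∑ a ∈ range l, ((vb F a (μ a) p B.2).card : ℝ) := by
    calc (bad.card : ℝ) * (256 * l * Λ * η) = ∑ B ∈ bad, (256 * l * Λ * η) := by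
          rw [Finset.sum_const, nsmul_eq_mul]
      _ ≤ ∑ B ∈ bad, ∑ a ∈ range l, ((vb F a (μ a) p B.2).card : ℝ) := by
          apply Finset.sum_le_sum
          intro B hB
          rw [hbad, mem_filter] at hB
          exact hB.2.le
      _ ≤ _ := by
          apply Finset.sum_le_sum_of_subset_of_nonneg (filter_subset _ _)
          intro B _ _
          apply Finset.sum_nonneg
          intro a _
          exact Nat.cast_nonneg _
  have h3 := hD.hBlow
  have h4 : (bad.card : ℝ) * (256 * l * Λ * η) * x ≤ l * (2 * s * η * Λ * Q.card) :=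
    (mul_le_mul_of_nonneg_right h2 hx0.le).trans h1
  have h5 : (2 * l * η * Λ) * (s * Q.card) ≤ (2 * l * η * Λ) * (8 * x * (Bl F).card) :=
    mul_le_mul_of_nonneg_left h3 (by positivity)
  have h6 : (16 * (bad.card : ℝ)) * (16 * l * Λ * η * x) ≤ ((Bl F).card : ℝ) * (16 * l * Λ * η * x) := by
    linarith only [h4, h5]
  have h7 : 16 * (bad.card : ℝ) ≤ (Bl F).card := le_of_mul_le_mul_right h6 (by positivity)
  have h8 : 16 * bad.card ≤ (Bl F).card := by exact_mod_cast h7
  omega

end Vale.Agent.P054I
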