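import Vale.Agent.P054.MathlibUsed
import Vale.Agent.P054.H449.IM.KeyX
import Vale.Agent.P054.H998.Tri
import Vale.Agent.P054.H998.Light
import Vale.Agent.P054.H239.Win
import Vale.Agent.P054.H343.G.Few
import Vale.Agent.P054.H343.G.DataB
import Vale.Agent.P054.H420.G.HeavyB
attribute [-instance] ProperSMul.toContinuousSMul IsTopologicalTorsor.toContinuousSMul IdemSemiring.toCanonicallyOrderedAdd IdemSemiring.toMulLeftMono IdemSemiring.toMulRightMono AddQuantale.instAddLeftMono AddQuantale.instAddRightMono Quantale.instMulLeftMono Quantale.instMulRightMono FiniteDimensional.rclike_to_real IsScalarTower.complexToReal FiniteDimensional.complexToReal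

set_option linter.all false
set_option autoImplicit false

open Finset Vale.Agent.P054K

namespace Vale.Agent.P054I

/-- the key proposition, unconditional -/
theorem keyX (d : ℕ) (hd : 2 ≤ d) : ∃ (K : ℝ) (c A : ℕ), 1 ≤ K ∧ KeyX d K c A :=
  keyX_of d hd (has_dataB d (by omega)) (few_blocks d (win_blocks d) (heavy_blocks d))
    (tri_blocks d) (light_pairs d)

end Vale.Agent.P054I
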